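import Vale.Agent.P281.H64.Gen.Spec
import Vale.Agent.P281.MF.Div

/-!
# P281 (helper969): block V7 of project T-V

A thin closed subset of a compact complex manifold contains only finitely many prime divisors.

Through a given point `q` pass at most `N` prime divisors contained in `A ⊆ {g = 0}`, where `N` is the
order of vanishing of `g` along a complex line through `q` (the product of the equations divides `g`).
Near a given point `x` the prime divisors contained in `A` all meet a finite set of points (the zeros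
of `g` on a small disc): the zeros on parallel discs persist.
-/

open scoped Manifold ContDiff Topology
open Set Filter Metric Vale.Agent.P281 Vale.Agent.P281.MF

set_option linter.unusedSectionVars false

noncomputable section

namespace Vale.Agent.P281.H969.Gen

section

variable {E : Type} [NormedAddCommGroup E] [NormedSpace ℂ E] [FiniteDimensional ℂ E]
variable {X : Type} [TopologicalSpace X] [ChartedSpace E X] [IsManifold 𝓘(ℂ, E) ω X]

/-- bounded lemma for functions vanishing on a divisor. -/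
theorem bound_of_vanish {D : Set X} {g g' : X → ℂ} {x : X}
    (h : IsLocalEq E D g x) (hg' : HolV E g' x) (h0 : ∀ᶠ z in 𝓝 x, z ∈ D → g' z = 0)
    (hxD : x ∈ D) (hd : dif E g x ≠ 0) :
    ∃ C : ℝ, ∀ᶠ z in 𝓝 x, ‖g' z‖ ≤ C * ‖g z‖ := by
  have hx : x ∈ (chartAt E x).source := mem_chart_source E x
  have hg := h.holAt
  have key := flat_bound (g := g ∘ (chartAt E x).symm) (g' := g' ∘ (chartAt E x).symm)
    (x := chartAt E x x) ((hg.rep hx).of_le (by simp)) ((hg'.rep hx).of_le (by simp))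
    (by
      intro h0
      apply hd
      rw [dif_eq_dV, dV_eq_chart hx hg, h0]
      ext; simp only [ContinuousLinearMap.zero_comp, zero_apply])
    (by
      simp only [Function.comp_apply, (chartAt E x).left_inv hx]
      exact h.mem_iff.1 hxD)
    (by
      have hev : ∀ᶠ z in 𝓝 x, g z = 0 → g' z = 0 := by
        filter_upwards [h.eventually, h0] with z hz hz' h0
        exact hz' (hz.mem_iff.2 h0)
      exact (tendsto_symm x).eventually hev)
  obtain ⟨C, hC⟩ := key
  refine ⟨C, ?_⟩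
  have h1 := (tendsto_chart (E := E) x).eventually hC
  filter_upwards [h1, (chartAt E x).open_source.mem_nhds hx] with z hz hzs
  simpa only [Function.comp_apply, (chartAt E x).left_inv hzs] using hz

/-- A reduced local equation divides the functions which vanish on the divisor. -/
theorem divides {D : Set X} {e g : X → ℂ} {x : X} (he : IsLocalEq E D e x) (hg : HolV E g x)
    (h0 : ∀ᶠ z in 𝓝 x, z ∈ D → g z = 0) :
    ∃ w : X → ℂ, HolV E w x ∧ ∀ᶠ z in 𝓝 x, g z = e z * w z := by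
  refine extendM hg he.holAt (leq_not_zero he) ?_
  filter_upwards [he.eventually, leq_dense_dif he, eventually_eventually_nhds.2
    ((he.eventually.and hg.eventually).and (eventually_eventually_nhds.2 h0))] with z hz hzd hze hz0
  have h1 := mem_closure_iff_frequently.1 (hzd (hz.mem_iff.2 hz0))
  rw [mem_closure_iff_frequently]
  refine (h1.and_eventually hze).mono ?_
  rintro y ⟨⟨hyD, hyd⟩, ⟨hye, hyg⟩, hy0⟩
  exact ⟨hye.mem_iff.1 hyD, bound_of_vanish hye hyg hy0 hyD hyd⟩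

/-- The union of finitely many other prime divisors is nowhere dense in a prime divisor. -/
theorem dense_diff {D : Set X} (hD : IsPrimeDivisor E D) (s : Finset (Set X))
    (hs : ∀ D' ∈ s, IsPrimeDivisor E D' ∧ D' ≠ D) : D ⊆ closure (D \ ⋃ D' ∈ s, D') := by
  classical
  induction s using Finset.induction_on with
  | empty =>
    intro x hx
    exact subset_closure ⟨hx, by simp⟩
  | insert D₁ s hD₁ ih =>
    have ih' := ih fun D' hD' => hs D' (Finset.mem_insert_of_mem hD')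
    obtain ⟨hP₁, hne₁⟩ := hs D₁ (Finset.mem_insert_self _ _)
    have hdense : D ⊆ closure (D \ D₁) := dense_in_prime (W := ℂ) hD (fun x _ => by
      obtain ⟨e, he⟩ := hP₁.2.1 x
      exact ⟨e, he.holAt, he.eventually.mono fun z hz _ => hz.mem_iff⟩) (by
      by_contra hcon
      push Not at hcon
      exact hne₁ (prime_eq_of_subset hD hP₁ hcon).symm)
    have hcl : IsClosed (⋃ D' ∈ s, D') := by
      refine s.finite_toSet.isClosed_biUnion fun D' hD' => ?_
      exact (hs D' (Finset.mem_insert_of_mem hD')).1.1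
    refine ih'.trans (closure_minimal ?_ isClosed_closure)
    rintro y ⟨hyD, hys⟩
    have h1 := mem_closure_iff_frequently.1 (hdense hyD)
    rw [mem_closure_iff_frequently]
    refine (h1.and_eventually (hcl.isOpen_compl.mem_nhds hys)).mono ?_
    rintro y' ⟨⟨hy'D, hy'D₁⟩, hy's⟩
    refine ⟨hy'D, fun hcon => ?_⟩
    rw [mem_iUnion₂] at hcon
    obtain ⟨D', hD', hyD'⟩ := hcon
    rcases Finset.mem_insert.1 hD' with rfl | h
    · exact hy'D₁ hyD'
    · exact hy's (mem_biUnion (show D' ∈ (s : Set (Set X)) from h) hyD')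

/-- The product of the equations of prime divisors divides the functions vanishing on them. -/
theorem exists_prod {q : X} {g : X → ℂ} (hg : HolV E g q) (s : Finset (Set X))
    (hs : ∀ D ∈ s, IsPrimeDivisor E D ∧ ∀ᶠ z in 𝓝 q, z ∈ D → g z = 0) :
    ∃ (e : Set X → X → ℂ) (w : X → ℂ), (∀ D ∈ s, IsLocalEq E D (e D) q) ∧ HolV E w q ∧
      ∀ᶠ z in 𝓝 q, g z = (∏ D ∈ s, e D z) * w z := by
  classical
  have hex : ∀ D ∈ s, ∃ e : X → ℂ, IsLocalEq E D e q := fun D hD => (hs D hD).1.2.1 q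
  choose! e he using hex
  refine ⟨e, ?_⟩
  suffices h : ∀ s' ⊆ s, ∃ w : X → ℂ, HolV E w q ∧ ∀ᶠ z in 𝓝 q, g z = (∏ D ∈ s', e D z) * w z by
    obtain ⟨w, hw, hwe⟩ := h s (Finset.Subset.refl s)
    exact ⟨w, he, hw, hwe⟩
  intro s'
  induction s' using Finset.induction_on with
  | empty =>
    intro _
    exact ⟨g, hg, Eventually.of_forall fun z => by simp⟩
  | insert D₁ s' hD₁ ih =>
    intro hsub
    obtain ⟨w, hw, hwe⟩ := ih ((Finset.subset_insert _ _).trans hsub)
    have hD₁s : D₁ ∈ s := hsub (Finset.mem_insert_self _ _)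
    have hs's : ∀ D ∈ s', D ∈ s := fun D hD => hsub (Finset.mem_insert_of_mem hD)
    have hdense : D₁ ⊆ closure (D₁ \ ⋃ D' ∈ s', D') :=
      dense_diff (hs D₁ hD₁s).1 s' fun D' hD' => ⟨(hs D' (hs's D' hD')).1, by
        rintro rfl
        exact hD₁ hD'⟩
    have hall : ∀ᶠ z in 𝓝 q, ∀ D ∈ s', IsLocalEq E D (e D) z := by
      rw [Filter.eventually_all_finset]
      intro D hD
      exact (he D (hs's D hD)).eventually
    have hzero : ∀ᶠ z in 𝓝 q, z ∈ D₁ → w z = 0 := by
      filter_upwards [hw.eventually, eventually_eventually_nhds.2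
        ((hwe.and hall).and (hs D₁ hD₁s).2)] with z hwz hz hzD
      have h1 := mem_closure_iff_frequently.1 (hdense hzD)
      have h2 : ∃ᶠ y in 𝓝 z, w y = 0 := by
        refine (h1.and_eventually hz).mono ?_
        rintro y ⟨⟨hyD, hys⟩, ⟨hyw, hye⟩, hyg⟩
        rw [hyg hyD] at hyw
        rcases mul_eq_zero.1 hyw.symm with h3 | h3
        · exfalso
          obtain ⟨D, hD, hD0⟩ := Finset.prod_eq_zero_iff.1 h3
          exact hys (mem_biUnion (show D ∈ (s' : Set (Set X)) from hD) ((hye D hD).mem_iff.2 hD0))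
        · exact h3
      by_contra hne
      exact h2 (hwz.continuousAt.eventually_ne hne)
    obtain ⟨w', hw', hwe'⟩ := divides (he D₁ hD₁s) hw hzero
    refine ⟨w', hw', ?_⟩
    filter_upwards [hwe, hwe'] with z h1 h2
    rw [Finset.prod_insert hD₁, h1, h2]
    ring

/-- order of vanishing of a product. -/
theorem le_order_prod {ι : Type*} (s : Finset ι) (G : ι → ℂ → ℂ)
    (h : ∀ i ∈ s, AnalyticAt ℂ (G i) 0 ∧ G i 0 = 0) :
    AnalyticAt ℂ (fun t => ∏ i ∈ s, G i t) 0 ∧
      (s.card : ℕ∞) ≤ analyticOrderAt (fun t => ∏ i ∈ s, G i t) 0 := by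
  classical
  induction s using Finset.induction_on with
  | empty =>
    refine ⟨?_, by simp⟩
    simp only [Finset.prod_empty]
    exact analyticAt_const
  | insert a s ha ih =>
    obtain ⟨h1, h2⟩ := ih fun i hi => h i (Finset.mem_insert_of_mem hi)
    obtain ⟨h3, h4⟩ := h a (Finset.mem_insert_self _ _)
    have h5 : (fun t => ∏ i ∈ insert a s, G i t) = G a * fun t => ∏ i ∈ s, G i t := by
      funext t
      rw [Finset.prod_insert ha]
      rfl
    have h6 : 1 ≤ analyticOrderAt (G a) 0 := by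
      rw [Order.one_le_iff_ne_zero, Ne, h3.analyticOrderAt_eq_zero, not_not]
      exact h4
    rw [h5, analyticOrderAt_mul h3 h1, Finset.card_insert_of_notMem ha]
    refine ⟨h3.mul h1, ?_⟩
    rw [Nat.cast_add, Nat.cast_one, add_comm]
    exact add_le_add h6 h2

/-- a bound for the number of factors vanishing at a point. -/
theorem card_bound {g : X → ℂ} {x : X} (hg : HolV E g x) (hne : ∃ᶠ z in 𝓝 x, g z ≠ 0) :
    ∃ N : ℕ, ∀ (s : Finset (Set X)) (e : Set X → X → ℂ) (w : X → ℂ),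
      (∀ D ∈ s, HolV E (e D) x ∧ e D x = 0) → HolV E w x →
      (∀ᶠ z in 𝓝 x, g z = (∏ D ∈ s, e D z) * w z) → s.card ≤ N := by
  set φ := chartAt E x with hφ
  have hx : x ∈ φ.source := mem_chart_source E x
  have han : AnalyticAt ℂ (g ∘ φ.symm) (φ x) := rep_analytic hg
  obtain ⟨ρ, hρ, hball⟩ := Metric.mem_nhds_iff.1 han.eventually_analyticAt
  have hne' : ∃ᶠ w in 𝓝 (φ x), g (φ.symm w) ≠ 0 := by
    have : ∃ᶠ z in 𝓝 x, g (φ.symm (φ z)) ≠ 0 := by
      refine (hne.and_eventually (φ.open_source.mem_nhds hx)).mono fun z hz => ?_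
      rw [φ.left_inv hz.2]; exact hz.1
    exact (tendsto_chart (E := E) x).frequently (p := fun w => g (φ.symm w) ≠ 0) this
  obtain ⟨z₀, hz₀, hz₀b⟩ := (hne'.and_eventually (ball_mem_nhds (φ x) hρ)).exists
  -- the line
  obtain ⟨d, hd⟩ : ∃ d, d = z₀ - φ x := ⟨_, rfl⟩
  set L : ℂ → E := fun t => φ x + t • d with hL
  have hLan : ∀ t, AnalyticAt ℂ L t := by
    intro t
    have : ContDiff ℂ ω L := by rw [hL]; fun_prop
    exact this.contDiffAt.analyticAt
  have hL0 : L 0 = φ x := by rw [hL]; simp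
  have hL1 : L 1 = z₀ := by rw [hL]; simp [hd]
  have hconv : Convex ℝ (L ⁻¹' ball (φ x) ρ) := by
    intro a ha b hb s t hs ht hst
    have h1 : L (s • a + t • b) = s • L a + t • L b := by
      simp only [hL]
      have h2 : (φ x) = s • φ x + t • φ x := by rw [← add_smul, hst, one_smul]
      rw [add_smul, smul_add, smul_add, smul_assoc, smul_assoc]
      nth_rewrite 1 [h2]
      abel
    rw [mem_preimage, h1]
    exact convex_ball (φ x) ρ ha hb hs ht hst
  have hLanN : AnalyticOnNhd ℂ (fun t => g (φ.symm (L t))) (L ⁻¹' ball (φ x) ρ) := by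
    intro t ht
    exact AnalyticAt.comp (g := g ∘ φ.symm) (hball ht) (hLan t)
  have h0mem : (0 : ℂ) ∈ L ⁻¹' ball (φ x) ρ := by
    rw [mem_preimage, hL0]; exact mem_ball_self hρ
  have hnz : ¬ ∀ᶠ t in 𝓝 (0 : ℂ), g (φ.symm (L t)) = 0 := by
    intro hz
    have := hLanN.eqOn_zero_of_preconnected_of_eventuallyEq_zero hconv.isPreconnected h0mem hz
    have h1 := this (show (1 : ℂ) ∈ L ⁻¹' ball (φ x) ρ by rw [mem_preimage, hL1]; exact hz₀b)
    simp only [hL1] at h1
    exact hz₀ h1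
  have hfin : analyticOrderAt (fun t => g (φ.symm (L t))) 0 ≠ ⊤ := by
    rw [Ne, analyticOrderAt_eq_top]
    exact hnz
  obtain ⟨N, hN⟩ := ENat.ne_top_iff_exists.1 hfin
  refine ⟨N, fun s e w he hw hwe => ?_⟩
  have hLc : Tendsto L (𝓝 0) (𝓝 (φ x)) := by
    have := (hLan 0).continuousAt.tendsto
    rwa [hL0] at this
  have hcomp : ∀ {G : X → ℂ}, HolV E G x → AnalyticAt ℂ (fun t => G (φ.symm (L t))) 0 := by
    intro G hG
    refine AnalyticAt.comp (g := G ∘ φ.symm) ?_ (hLan 0)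
    rw [hL0]
    exact rep_analytic hG
  obtain ⟨hpA, hpc⟩ := le_order_prod s (fun D t => e D (φ.symm (L t))) fun D hD =>
    ⟨hcomp (he D hD).1, by simp only [hL0, φ.left_inv hx]; exact (he D hD).2⟩
  have hwA := hcomp hw
  have hev : (fun t => g (φ.symm (L t))) =ᶠ[𝓝 0]
      (fun t => ∏ D ∈ s, e D (φ.symm (L t))) * (fun t => w (φ.symm (L t))) :=
    ((tendsto_symm (E := E) x).comp hLc).eventually hwe
  have hord := analyticOrderAt_congr hev
  rw [analyticOrderAt_mul hpA hwA, ← hN] at hord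
  have h2 : (s.card : ℕ∞) ≤ N := by
    rw [hord]
    exact hpc.trans le_self_add
  exact_mod_cast h2

/-- Finitely many prime divisors contained in a thin set pass through a given point. -/
theorem finite_through {A : Set X} {q : X} {g : X → ℂ} (hg : HolV E g q)
    (hne : ¬ ∀ᶠ z in 𝓝 q, g z = 0) (hA : ∀ᶠ z in 𝓝 q, z ∈ A → g z = 0) :
    {D : Set X | IsPrimeDivisor E D ∧ D ⊆ A ∧ q ∈ D}.Finite := by
  obtain ⟨N, hN⟩ := card_bound hg (fun hcon => hne (by simpa using hcon))
  by_contra hinf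
  obtain ⟨s, hs, hsc⟩ := Set.Infinite.exists_subset_card_eq hinf (N + 1)
  obtain ⟨e, w, he, hw, hgw⟩ := exists_prod hg s fun D hD =>
    ⟨(hs hD).1, hA.mono fun z hz hzD => hz ((hs hD).2.1 hzD)⟩
  have := hN s e w (fun D hD => ⟨(he D hD).holAt, (he D hD).mem_iff.1 (hs hD).2.2⟩) hw hgw
  omega

/-- Near `x`, the divisors contained in a thin set meet a finite set of points. -/
theorem local_through {A : Set X} {x : X} {g : X → ℂ} (hg : HolV E g x)
    (hne : ¬ ∀ᶠ z in 𝓝 x, g z = 0) (hA : ∀ᶠ z in 𝓝 x, z ∈ A → g z = 0) :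
    ∃ U Q : Set X, IsOpen U ∧ x ∈ U ∧ Q.Finite ∧ ∀ D : Set X, IsClosed D →
      (∀ z, ∃ e, IsLocalEq E D e z) → D ⊆ A → (D ∩ U).Nonempty → (D ∩ Q).Nonempty := by
  set φ := chartAt E x with hφ
  have hx : x ∈ φ.source := mem_chart_source E x
  set P : E → ℂ := g ∘ φ.symm with hP
  obtain ⟨η, r, ρ, c, M, hr, hρ, hc, h1, h2, h3⟩ := exists_radii (Den := P)
    (Num := P) (x₀ := φ x) (rep_analytic hg) (rep_analytic hg) (by
      intro h
      apply hne
      filter_upwards [(tendsto_chart x).eventually h, φ.open_source.mem_nhds hx] with z hz hzs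
      have : g (φ.symm (φ z)) = 0 := hz
      rwa [φ.left_inv hzs] at this)
    (p := fun w => w ∈ φ.target ∧ (φ.symm w ∈ A → g (φ.symm w) = 0)) (by
      filter_upwards [φ.open_target.mem_nhds (φ.map_source hx), (tendsto_symm x).eventually hA]
        with w hw1 hw2
      exact ⟨hw1, hw2⟩)
  have hcont : Continuous fun p : E × ℂ => p.1 + p.2 • η := by fun_prop
  have hfin : ∀ z ∈ ball (φ x) r, {t : ℂ | ‖t‖ ≤ ρ ∧ P (z + t • η) = 0}.Finite := by
    intro z hz
    refine finite_zeros (f := fun t => P (z + t • η)) (M := M) hρ hc ?_ (h2 z hz) ?_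
    · intro t ht
      rw [mem_ball_zero_iff] at ht
      exact (DifferentiableAt.comp (g := P) (f := fun t : ℂ => z + t • η) t
        (h1 z hz t ht).self_of_nhds.1 (by fun_prop)).differentiableWithinAt
    · have hn : ‖(ρ : ℂ)‖ = ρ := by rw [Complex.norm_real, Real.norm_of_nonneg hρ.le]
      exact h3 z hz (ρ : ℂ) (by rw [hn]; linarith) (by rw [hn]; linarith)
  refine ⟨φ.source ∩ φ ⁻¹' ball (φ x) r,
    (fun t : ℂ => φ.symm (φ x + t • η)) '' {t : ℂ | ‖t‖ ≤ ρ ∧ P (φ x + t • η) = 0},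
    φ.isOpen_inter_preimage isOpen_ball, ⟨hx, mem_ball_self hr⟩,
    (hfin _ (mem_ball_self hr)).image _, ?_⟩
  rintro D hDc hDe hDA ⟨y, hyD, hys, hyb⟩
  -- points of `D` on a disc are zeros
  have hz0 : ∀ z ∈ ball (φ x) r, ∀ t : ℂ, ‖t‖ ≤ ρ → φ.symm (z + t • η) ∈ D →
      P (z + t • η) = 0 := fun z hz t ht hD =>
    (h1 z hz t (by linarith)).self_of_nhds.2.2.2 (hDA hD)
  have hlt : ∀ z ∈ ball (φ x) r, ∀ t : ℂ, ‖t‖ ≤ ρ → P (z + t • η) = 0 → ‖t‖ < ρ := by
    intro z hz t ht h0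
    rcases ht.lt_or_eq with h | h
    · exact h
    · have := h3 z hz t (by linarith) (by linarith)
      rw [h0, norm_zero] at this
      linarith
  set Z : Set E := {z | z ∈ ball (φ x) r ∧ ∃ t : ℂ, ‖t‖ < ρ ∧ φ.symm (z + t • η) ∈ D} with hZ
  set Z' : Set E := {z | z ∈ ball (φ x) r ∧ ∀ t : ℂ, ‖t‖ ≤ ρ → φ.symm (z + t • η) ∉ D} with hZ'
  have hZo : IsOpen Z := by
    rw [isOpen_iff_mem_nhds]
    rintro z ⟨hzb, t₁, ht₁, ht₁D⟩
    have hwt : z + t₁ • η ∈ φ.target := (h1 z hzb t₁ (by linarith)).self_of_nhds.2.2.1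
    have hws : φ.symm (z + t₁ • η) ∈ φ.source := φ.map_target hwt
    obtain ⟨e, he⟩ := hDe (φ.symm (z + t₁ • η))
    have hsymm : Tendsto φ.symm (𝓝 (z + t₁ • η)) (𝓝 (φ.symm (z + t₁ • η))) :=
      (φ.continuousAt_symm hwt).tendsto
    have hgood : ∀ᶠ w in 𝓝 (z + t₁ • η), (φ.symm w ∈ D ↔ e (φ.symm w) = 0) ∧
        DifferentiableAt ℂ (e ∘ φ.symm) w := by
      filter_upwards [hsymm.eventually he.eventually, φ.open_target.mem_nhds hwt] with w hw hwt'
      refine ⟨hw.mem_iff, ?_⟩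
      have hws' : φ.symm w ∈ φ.source := φ.map_target hwt'
      have := (hw.holAt.rep hws').differentiableAt (by simp)
      rwa [← hφ, φ.right_inv hwt'] at this
    have hev : ∀ᶠ p : E × ℂ in 𝓝 (z, t₁), ∀ᶠ w in 𝓝 (p.1 + p.2 • η),
        (φ.symm w ∈ D ↔ e (φ.symm w) = 0) ∧ DifferentiableAt ℂ (e ∘ φ.symm) w :=
      (hcont.continuousAt (x := (z, t₁))).eventually (eventually_eventually_nhds.2 hgood)
    obtain ⟨δ₀, hδ₀, hδ₀b⟩ := Metric.eventually_nhds_iff_ball.1 hev
    -- isolated zeros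
    have hiso : ∀ᶠ t in 𝓝 t₁, t ≠ t₁ → ‖t‖ ≤ ρ → P (z + t • η) ≠ 0 := by
      have h4 : ∀ᶠ t in 𝓝 t₁, t ∉ {t : ℂ | ‖t‖ ≤ ρ ∧ P (z + t • η) = 0} \ {t₁} :=
        ((hfin z hzb).subset sdiff_subset).isClosed.isOpen_compl.mem_nhds (fun h => h.2 rfl)
      filter_upwards [h4] with t ht hne' htρ h0
      exact ht ⟨⟨htρ, h0⟩, hne'⟩
    obtain ⟨δ₁, hδ₁, hδ₁b⟩ := Metric.eventually_nhds_iff_ball.1 hiso
    obtain ⟨δ, hδ, hδ0', hδ1', hδρ⟩ : ∃ δ > 0, δ < δ₀ ∧ δ < δ₁ ∧ ‖t₁‖ + δ < ρ := by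
      refine ⟨min (min (δ₀ / 2) (δ₁ / 2)) ((ρ - ‖t₁‖) / 2), ?_, ?_, ?_, ?_⟩
      · have : 0 < ρ - ‖t₁‖ := by linarith
        positivity
      · have h5 := min_le_left (min (δ₀ / 2) (δ₁ / 2)) ((ρ - ‖t₁‖) / 2)
        have h6 := min_le_left (δ₀ / 2) (δ₁ / 2)
        linarith
      · have h5 := min_le_left (min (δ₀ / 2) (δ₁ / 2)) ((ρ - ‖t₁‖) / 2)
        have h6 := min_le_right (δ₀ / 2) (δ₁ / 2)
        linarith
      · have h5 := min_le_right (min (δ₀ / 2) (δ₁ / 2)) ((ρ - ‖t₁‖) / 2)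
        linarith
    have hle : ∀ t : ℂ, ‖t - t₁‖ ≤ δ → ‖t‖ < ρ := by
      intro t ht
      have h5 := norm_add_le (t - t₁) t₁
      rw [sub_add_cancel] at h5
      linarith
    have hpair : ∀ (z' : E) (t : ℂ), dist z' z < δ₀ → ‖t - t₁‖ ≤ δ →
        ∀ᶠ w in 𝓝 (z' + t • η), (φ.symm w ∈ D ↔ e (φ.symm w) = 0) ∧
          DifferentiableAt ℂ (e ∘ φ.symm) w := by
      intro z' t hz' ht
      refine hδ₀b (z', t) ?_
      rw [mem_ball, Prod.dist_eq, max_lt_iff]
      refine ⟨hz', ?_⟩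
      show dist t t₁ < δ₀
      rw [dist_eq_norm]
      linarith
    have hpers := zero_persists (P := e ∘ φ.symm) (η := η) (z₀ := z) (t₀ := t₁) hδ
      (fun t ht => (hpair z t (by rw [dist_self]; exact hδ₀) ht).mono fun w hw => hw.2)
      (by
        have h5 := (hpair z t₁ (by rw [dist_self]; exact hδ₀) (by
          rw [sub_self, norm_zero]; exact hδ.le)).self_of_nhds.1
        exact h5.1 ht₁D)
      (by
        intro t ht h0
        have h5 := (hpair z t (by rw [dist_self]; exact hδ₀) ht.le).self_of_nhds.1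
        have h6 : φ.symm (z + t • η) ∈ D := h5.2 h0
        have h7 := hle t ht.le
        refine hδ₁b t ?_ ?_ h7.le (hz0 z hzb t h7.le h6)
        · rw [mem_ball, dist_eq_norm]
          linarith
        · rintro rfl
          rw [sub_self, norm_zero] at ht
          linarith)
    filter_upwards [hpers, isOpen_ball.mem_nhds hzb, ball_mem_nhds z hδ₀] with z' hz' hz'b hz'δ
    obtain ⟨t, ht, ht0⟩ := hz'
    exact ⟨hz'b, t, hle t ht.le, (hpair z' t hz'δ ht.le).self_of_nhds.1.2 ht0⟩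
  have hZ'o : IsOpen Z' := by
    rw [isOpen_iff_mem_nhds]
    rintro z ⟨hzb, hzD⟩
    have hev : ∀ᶠ z' in 𝓝 z, ∀ t ∈ closedBall (0 : ℂ) ρ, φ.symm (z' + t • η) ∉ D := by
      refine (isCompact_closedBall (0 : ℂ) ρ).eventually_forall_of_forall_eventually fun t ht => ?_
      rw [mem_closedBall_zero_iff] at ht
      have hwt : z + t • η ∈ φ.target := (h1 z hzb t (by linarith)).self_of_nhds.2.2.1
      have h4 : ∀ᶠ w in 𝓝 (z + t • η), φ.symm w ∉ D :=
        (φ.continuousAt_symm hwt).eventually (hDc.isOpen_compl.mem_nhds (hzD t ht))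
      exact (hcont.continuousAt (x := (z, t))).eventually h4
    filter_upwards [hev, isOpen_ball.mem_nhds hzb] with z' hz' hz'b
    exact ⟨hz'b, fun t ht => hz' t (mem_closedBall_zero_iff.2 ht)⟩
  have hdisj : Disjoint Z Z' := by
    rw [Set.disjoint_left]
    rintro z ⟨-, t, ht, htD⟩ ⟨-, h⟩
    exact h t ht.le htD
  have hcov : ball (φ x) r ⊆ Z ∪ Z' := by
    intro z hz
    by_cases h : ∀ t : ℂ, ‖t‖ ≤ ρ → φ.symm (z + t • η) ∉ D
    · exact Or.inr ⟨hz, h⟩
    · push Not at h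
      obtain ⟨t, ht, htD⟩ := h
      exact Or.inl ⟨hz, t, hlt z hz t ht (hz0 z hz t ht htD), htD⟩
  have hsub := IsPreconnected.subset_left_of_subset_union hZo hZ'o hdisj hcov
    ⟨φ y, hyb, hyb, 0, by rw [norm_zero]; exact hρ, by
      rw [zero_smul, add_zero, φ.left_inv hys]; exact hyD⟩ (convex_ball (φ x) r).isPreconnected
  obtain ⟨-, t, ht, htD⟩ := hsub (mem_ball_self hr)
  exact ⟨φ.symm (φ x + t • η), htD, t, ⟨ht.le, hz0 _ (mem_ball_self hr) t ht.le htD⟩, rfl⟩

end

/-- **V7**: a thin closed subset of a compact manifold contains finitely many prime divisors. -/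
theorem fin : Vale.Agent.P281.H64.Gen.FinStmt := by
  intro n X _ _ _ _ _ A hA
  choose g hg hne hgA using hA.2
  choose U Q hU hxU hQ hUQ using fun x =>
    local_through (E := Vale.Agent.P281.H64.Cm n) (hg x) (hne x) (hgA x)
  obtain ⟨t, -, ht⟩ := isCompact_univ.elim_nhds_subcover U fun x _ => (hU x).mem_nhds (hxU x)
  have hfinQ : (⋃ x ∈ t, Q x).Finite := t.finite_toSet.biUnion fun x _ => hQ x
  refine (hfinQ.biUnion fun q _ =>
    finite_through (E := Vale.Agent.P281.H64.Cm n) (hg q) (hne q) (hgA q)).subset ?_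
  rintro D ⟨hD, hDA⟩
  obtain ⟨y, hyD, -⟩ := hD.2.2.1
  obtain ⟨x, hxt, hyx⟩ := mem_iUnion₂.1 (ht (mem_univ y))
  obtain ⟨q, hqD, hqQ⟩ := hUQ x D hD.1 hD.2.1 hDA ⟨y, hyD, hyx⟩
  exact mem_biUnion (mem_biUnion (show x ∈ (t : Set X) from hxt) hqQ) ⟨hD, hDA, hqD⟩

end Vale.Agent.P281.H969.Gen
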